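import Vale.Agent.P076.H596.WW

/-! # P076, [CRUDE]: transfer of an energy bound from scale `S` to a coarser scale `T` (helper596) -/

set_option linter.all false

open MeasureTheory Set
open scoped ENNReal

namespace Vale.Agent.P076.H596

open Vale.Agent.P076.X Vale.Agent.P076.H629

lemma sol_cont {g : ℝ → ℂ} (hg : Integrable g) (t : ℝ) : Continuous (fun z => sol g z t) := by
  unfold sol
  apply continuous_of_dominated (bound := fun ξ => ‖g ξ‖)
  · intro x
    apply hg.aestronglyMeasurable.mul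
    exact (ex_cont.comp (by fun_prop : Continuous fun ξ : ℝ => x * ξ - t * ξ ^ 2)).aestronglyMeasurable
  · intro x
    refine Filter.Eventually.of_forall fun ξ => ?_
    rw [norm_mul, ex_norm, mul_one]
  · exact hg.norm
  · refine Filter.Eventually.of_forall fun ξ => ?_
    exact continuous_const.mul (ex_cont.comp (by fun_prop))

lemma ofReal_eW {r : ℝ} (hr : 0 < r) {g : ℝ → ℂ} (hg : Good g) (x t : ℝ) :
    ENNReal.ofReal (eW r x t g) = ∫⁻ y, ENNReal.ofReal (W r (x - y) * ‖sol g y t‖ ^ 2) := by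
  unfold eW
  exact ofReal_integral_eq_lintegral_ofReal (eW_int hr hg x t)
    (Filter.Eventually.of_forall fun y => mul_nonneg (W_nonneg hr _) (by positivity))

/-- average of the energy of scale `S` with a weight of scale `T` -/
noncomputable def LL (S T x t : ℝ) (g : ℝ → ℂ) : ℝ≥0∞ :=
  ∫⁻ u, ENNReal.ofReal (W T (x - u)) * ENNReal.ofReal (eW S u t g)

lemma LL_eq {S T : ℝ} (hS : 0 < S) (hT : 0 < T) {g : ℝ → ℂ} (hg : Good g) (x t : ℝ) :
    LL S T x t g = ∫⁻ z, (∫⁻ u, ENNReal.ofReal (W T (x - u) * W S (u - z))) *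
      ENNReal.ofReal (‖sol g z t‖ ^ 2) := by
  unfold LL
  have h1 : ∀ u, ENNReal.ofReal (W T (x - u)) * ENNReal.ofReal (eW S u t g) =
      ∫⁻ z, ENNReal.ofReal (W T (x - u) * W S (u - z)) * ENNReal.ofReal (‖sol g z t‖ ^ 2) := by
    intro u
    rw [ofReal_eW hS hg, ← lintegral_const_mul']
    · apply lintegral_congr
      intro z
      rw [ENNReal.ofReal_mul (W_nonneg hS _), ENNReal.ofReal_mul (W_nonneg hT _), mul_assoc]
    · exact ENNReal.ofReal_ne_top
  simp_rw [h1]
  rw [lintegral_lintegral_swap]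
  · apply lintegral_congr
    intro z
    rw [lintegral_mul_const']
    exact ENNReal.ofReal_ne_top
  · apply Measurable.aemeasurable
    show Measurable (fun p : ℝ × ℝ => ENNReal.ofReal (W T (x - p.1) * W S (p.1 - p.2)) *
      ENNReal.ofReal (‖sol g p.2 t‖ ^ 2))
    have m1 : Measurable (fun p : ℝ × ℝ => W T (x - p.1)) :=
      ((W_cont T).comp (by fun_prop : Continuous fun p : ℝ × ℝ => x - p.1)).measurable
    have m2 : Measurable (fun p : ℝ × ℝ => W S (p.1 - p.2)) :=
      ((W_cont S).comp (by fun_prop : Continuous fun p : ℝ × ℝ => p.1 - p.2)).measurable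
    have m3 : Measurable (fun p : ℝ × ℝ => ‖sol g p.2 t‖ ^ 2) :=
      (((sol_cont hg.1 t).measurable.comp measurable_snd).norm.pow_const 2)
    exact (m1.mul m2).ennreal_ofReal.mul m3.ennreal_ofReal

lemma lint_W {r : ℝ} (hr : 0 < r) : ∫⁻ u, ENNReal.ofReal (W r u) ≤ 2 := by
  rw [← ofReal_integral_eq_lintegral_ofReal (W_int hr).1
    (Filter.Eventually.of_forall fun u => W_nonneg hr u)]
  have := ENNReal.ofReal_le_ofReal (W_int hr).2
  simpa using this

lemma lint_W1 {r : ℝ} (hr : 0 < r) (z : ℝ) : ∫⁻ u, ENNReal.ofReal (W r (u - z)) ≤ 2 := by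
  rw [lintegral_sub_right_eq_self (fun u => ENNReal.ofReal (W r u)) z]
  exact lint_W hr

lemma lint_W2 {r : ℝ} (hr : 0 < r) (x : ℝ) : ∫⁻ u, ENNReal.ofReal (W r (x - u)) ≤ 2 := by
  have : ∀ u, W r (x - u) = W r (u - x) := fun u => by rw [← W_even r (x - u)]; congr 1; ring
  simp_rw [this]
  exact lint_W1 hr x

lemma meas_oW (r : ℝ) (z : ℝ) : Measurable (fun u => ENNReal.ofReal (W r (u - z))) :=
  ((W_cont r).comp (by fun_prop : Continuous fun u : ℝ => u - z)).measurable.ennreal_ofReal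

lemma meas_oW' (r : ℝ) (z : ℝ) : Measurable (fun u => ENNReal.ofReal (W r (z - u))) :=
  ((W_cont r).comp (by fun_prop : Continuous fun u : ℝ => z - u)).measurable.ennreal_ofReal

/-- upper bound of the kernel -/
lemma ker_le {S T : ℝ} (hS : 0 < S) (hT : S ≤ T) (x z : ℝ) :
    ∫⁻ u, ENNReal.ofReal (W T (x - u) * W S (u - z)) ≤ ENNReal.ofReal (256 * W T (x - z)) := by
  have hT0 : 0 < T := hS.trans_le hT
  have h1 : ∀ u, ENNReal.ofReal (W T (x - u) * W S (u - z)) ≤
      ENNReal.ofReal (64 * W T (x - z)) * (ENNReal.ofReal (W S (u - z)) + ENNReal.ofReal (W T (x - u))) := by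
    intro u
    rw [← ENNReal.ofReal_add (W_nonneg hS _) (W_nonneg hT0 _), ← ENNReal.ofReal_mul
      (mul_nonneg (by norm_num) (W_nonneg hT0 _))]
    apply ENNReal.ofReal_le_ofReal
    have := W_prod hS hT (x - u) (u - z)
    have e : x - u + (u - z) = x - z := by ring
    rw [e] at this
    exact this
  refine (lintegral_mono h1).trans ?_
  rw [lintegral_const_mul' _ _ ENNReal.ofReal_ne_top, lintegral_add_left (meas_oW S z)]
  have h2 := add_le_add (lint_W1 hS z) (lint_W2 hT0 x)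
  refine (mul_le_mul_right h2 _).trans ?_
  have h4 : (2 + 2 : ℝ≥0∞) = ENNReal.ofReal 4 := by
    rw [show (4:ℝ) = 2 + 2 by norm_num, ENNReal.ofReal_add (by norm_num) (by norm_num)]
    simp
  rw [h4, ← ENNReal.ofReal_mul (mul_nonneg (by norm_num) (W_nonneg hT0 _))]
  apply ENNReal.ofReal_le_ofReal
  linarith

/-- lower bound of the kernel -/
lemma ker_ge {S T : ℝ} (hS : 0 < S) (hT : S ≤ T) (x z : ℝ) :
    ENNReal.ofReal (W T (x - z)) ≤ 36 * ∫⁻ u, ENNReal.ofReal (W T (x - u) * W S (u - z)) := by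
  have hT0 : 0 < T := hS.trans_le hT
  have h1 : ∀ u ∈ Icc (z - S) (z + S), ENNReal.ofReal (W T (x - z) / (18 * Real.pi * S)) ≤
      ENNReal.ofReal (W T (x - u) * W S (u - z)) := by
    intro u hu
    apply ENNReal.ofReal_le_ofReal
    have huz : |u - z| ≤ S := by rw [abs_le]; constructor <;> linarith [hu.1, hu.2]
    have e1 : W T (x - z) ≤ 9 * W T (x - u) := by
      apply W_comp hT0
      have : x - z - (x - u) = u - z := by ring
      rw [this]; exact huz.trans hT
    have e2 : 1 / (2 * Real.pi * S) ≤ W S (u - z) := by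
      unfold W
      have h4 : (u - z) ^ 2 / S ^ 2 ≤ 1 := by
        rw [div_le_one (by positivity), ← sq_abs]
        exact pow_le_pow_left₀ (abs_nonneg _) huz 2
      have h5 : (4:ℝ)⁻¹ ≤ ((1 + (u - z) ^ 2 / S ^ 2) ^ 2)⁻¹ := by
        apply inv_anti₀ (by positivity)
        have h0 : 0 ≤ (u - z) ^ 2 / S ^ 2 := by positivity
        nlinarith
      calc 1 / (2 * Real.pi * S) = 2 / (Real.pi * S) * (4:ℝ)⁻¹ := by field_simp; norm_num
        _ ≤ _ := mul_le_mul_of_nonneg_left h5 (by positivity)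
    have e3 : W T (x - z) / 9 ≤ W T (x - u) := by linarith
    calc W T (x - z) / (18 * Real.pi * S) = W T (x - z) / 9 * (1 / (2 * Real.pi * S)) := by
          field_simp; ring
      _ ≤ _ := mul_le_mul e3 e2 (by positivity) (W_nonneg hT0 _)
  have h2 : ∫⁻ u in Icc (z - S) (z + S), ENNReal.ofReal (W T (x - z) / (18 * Real.pi * S)) ≤
      ∫⁻ u, ENNReal.ofReal (W T (x - u) * W S (u - z)) :=
    (setLIntegral_mono' measurableSet_Icc h1).trans (setLIntegral_le_lintegral _ _)
  rw [setLIntegral_const, Real.volume_Icc, ← ENNReal.ofReal_mul (by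
    have := W_nonneg hT0 (x - z)
    have := Real.pi_pos
    positivity)] at h2
  refine le_trans ?_ (mul_le_mul_right h2 _)
  have h36 : (36 : ℝ≥0∞) = ENNReal.ofReal 36 := by simp
  rw [h36, ← ENNReal.ofReal_mul (by norm_num)]
  apply ENNReal.ofReal_le_ofReal
  have hW := W_nonneg hT0 (x - z)
  have e : 36 * (W T (x - z) / (18 * Real.pi * S) * (z + S - (z - S))) = W T (x - z) * (4 / Real.pi) := by
    field_simp; ring
  rw [e]
  have h5 : 1 ≤ 4 / Real.pi := by
    rw [le_div_iff₀ Real.pi_pos]; linarith [Real.pi_le_four]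
  nlinarith

lemma LL_le {S T : ℝ} (hS : 0 < S) (hT : S ≤ T) {g : ℝ → ℂ} (hg : Good g) (x t : ℝ) :
    LL S T x t g ≤ ENNReal.ofReal (256 * eW T x t g) := by
  have hT0 : 0 < T := hS.trans_le hT
  rw [LL_eq hS hT0 hg, ENNReal.ofReal_mul (by norm_num), ofReal_eW hT0 hg,
    ← lintegral_const_mul' _ _ ENNReal.ofReal_ne_top]
  apply lintegral_mono
  intro z
  refine (mul_le_mul_left (ker_le hS hT x z) _).trans ?_
  show _ ≤ ENNReal.ofReal 256 * ENNReal.ofReal (W T (x - z) * ‖sol g z t‖ ^ 2)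
  rw [← ENNReal.ofReal_mul (mul_nonneg (by norm_num) (W_nonneg hT0 _)),
    ← ENNReal.ofReal_mul (by norm_num)]
  apply ENNReal.ofReal_le_ofReal
  apply le_of_eq
  ring

lemma LL_ge {S T : ℝ} (hS : 0 < S) (hT : S ≤ T) {g : ℝ → ℂ} (hg : Good g) (x t : ℝ) :
    ENNReal.ofReal (eW T x t g) ≤ 36 * LL S T x t g := by
  have hT0 : 0 < T := hS.trans_le hT
  rw [LL_eq hS hT0 hg, ofReal_eW hT0 hg, ← lintegral_const_mul' _ _ (by norm_num)]
  apply lintegral_mono
  intro z
  show ENNReal.ofReal (W T (x - z) * ‖sol g z t‖ ^ 2) ≤ 36 *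
    ((∫⁻ u, ENNReal.ofReal (W T (x - u) * W S (u - z))) * ENNReal.ofReal (‖sol g z t‖ ^ 2))
  rw [ENNReal.ofReal_mul (W_nonneg hT0 _), ← mul_assoc]
  exact mul_le_mul_left (ker_ge hS hT x z) _

/-- transfer of an energy comparison from scale `S` to scale `T` -/
lemma eW_trans {B S T : ℝ} (hB : 1 ≤ B) (hS : 0 < S) (hT : S ≤ T) {CW : ℝ} (hCW : 0 < CW)
    (hEnW : ∀ s : ℝ, 0 < s → ∀ g : ℝ → ℂ, Good g → ∀ x t : ℝ,
      Integrable (fun y => W s (x - y) * ‖sol g y t‖ ^ 2) ∧
      En B s x t g ≤ CW * ∫ y, W s (x - y) * ‖sol g y t‖ ^ 2)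
    {g g' : ℝ → ℂ} (hg : Good g) (hg' : Good g') {t : ℝ}
    (h : ∀ u, En B S u t g' ≤ En B S u t g) (x : ℝ) :
    eW T x t g' ≤ 36 * (9 * B * Real.exp (2 * Real.pi) * CW) * 256 * eW T x t g := by
  have hT0 : 0 < T := hS.trans_le hT
  set K : ℝ := 9 * B * Real.exp (2 * Real.pi) * CW with hK
  have hB0 : 0 < B := by linarith
  have hKp : 0 < K := by positivity
  have h1 : ∀ u, eW S u t g' ≤ K * eW S u t g := by
    intro u
    have a1 := eW_le_En hB hS hg' u t
    have a2 := (hEnW S hS g hg u t).2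
    have a3 : En B S u t g' ≤ CW * eW S u t g := (h u).trans a2
    calc _ ≤ _ := a1
      _ ≤ 9 * B * Real.exp (2 * Real.pi) * (CW * eW S u t g) :=
          mul_le_mul_of_nonneg_left a3 (by positivity)
      _ = _ := by rw [hK]; ring
  have h2 : LL S T x t g' ≤ ENNReal.ofReal K * LL S T x t g := by
    unfold LL
    rw [← lintegral_const_mul' _ _ ENNReal.ofReal_ne_top]
    apply lintegral_mono
    intro u
    show ENNReal.ofReal (W T (x - u)) * ENNReal.ofReal (eW S u t g') ≤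
      ENNReal.ofReal K * (ENNReal.ofReal (W T (x - u)) * ENNReal.ofReal (eW S u t g))
    rw [mul_left_comm, ← ENNReal.ofReal_mul hKp.le]
    exact mul_le_mul_right (ENNReal.ofReal_le_ofReal (h1 u)) _
  have h3 := LL_ge hS hT hg' x t
  have h4 := LL_le hS hT hg x t
  have h5 : ENNReal.ofReal (eW T x t g') ≤ ENNReal.ofReal (36 * K * 256 * eW T x t g) := by
    have h36 : (36 : ℝ≥0∞) = ENNReal.ofReal 36 := by simp
    calc ENNReal.ofReal (eW T x t g') ≤ 36 * LL S T x t g' := h3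
      _ ≤ 36 * (ENNReal.ofReal K * LL S T x t g) := mul_le_mul_right h2 _
      _ ≤ 36 * (ENNReal.ofReal K * ENNReal.ofReal (256 * eW T x t g)) :=
          mul_le_mul_right (mul_le_mul_right h4 _) _
      _ = _ := by
          rw [h36, ← ENNReal.ofReal_mul hKp.le, ← ENNReal.ofReal_mul (by norm_num)]
          congr 1
          ring
  rwa [ENNReal.ofReal_le_ofReal_iff] at h5
  have := eW_nonneg hT0 x t g
  positivity

end Vale.Agent.P076.H596
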