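import Vale.Agent.P076.H629.XMax
import Vale.Agent.P076.H7.Sum3
import Vale.Agent.P076.H416.TelX
import Vale.Agent.P076.X.Amp
import Vale.Agent.P076.X.Rep

/-! # P076, [CRUDE]: counting of the squares where the energy jumps from scale `2^(N+1) S` to `S` (helper596) -/

set_option linter.all false

open MeasureTheory Set

namespace Vale.Agent.P076.H596

open Vale.Agent.P076.X Vale.Agent.P076.H629

lemma wgt_mu {s : ℝ} (hs : 0 < s) : H7.Wgt (mu s) := by
  refine ⟨?_, H7.mu_nonneg hs, fun a => ?_⟩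
  · have : Continuous (mu s) := by unfold mu; fun_prop
    exact this.measurable
  · unfold mu
    have : 0 ≤ Real.pi * s ^ 2 * a ^ 2 := by positivity
    exact mul_le_one₀ (min_le_left _ _) (Real.exp_pos _).le (Real.exp_le_one_iff.2 (by linarith))

lemma mu_scale {S : ℝ} (hS : 0 < S) (i : ℕ) (a : ℝ) : mu (2 ^ i * S) a ≤ 8 ^ i * mu S a := by
  unfold mu
  have h8 : (8:ℝ) ^ i = (2 ^ i) ^ 3 := by rw [← pow_mul, mul_comm, pow_mul]; norm_num
  have h1 : (1:ℝ) ≤ 2 ^ i := one_le_pow₀ (by norm_num)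
  have h3 : 0 ≤ (S * |a|) ^ 3 := by positivity
  have e : (2 ^ i * S * |a|) ^ 3 = 8 ^ i * (S * |a|) ^ 3 := by rw [h8]; ring
  have h18 : (1:ℝ) ≤ 8 ^ i := one_le_pow₀ (by norm_num)
  have hmin : min 1 ((2 ^ i * S * |a|) ^ 3) ≤ 8 ^ i * min 1 ((S * |a|) ^ 3) := by
    rw [e]
    rcases le_total 1 ((S * |a|) ^ 3) with h | h
    · rw [min_eq_left h]
      exact (min_le_left _ _).trans (by linarith)
    · rw [min_eq_right h]
      exact min_le_right _ _
  have hexp : Real.exp (-(Real.pi * (2 ^ i * S) ^ 2 * a ^ 2 / 2)) ≤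
      Real.exp (-(Real.pi * S ^ 2 * a ^ 2 / 2)) := by
    apply Real.exp_le_exp.mpr
    have h4 : S ^ 2 ≤ (2 ^ i * S) ^ 2 := by
      apply pow_le_pow_left₀ hS.le
      nlinarith
    have h5 : Real.pi * S ^ 2 * a ^ 2 ≤ Real.pi * (2 ^ i * S) ^ 2 * a ^ 2 := by
      apply mul_le_mul_of_nonneg_right _ (sq_nonneg a)
      exact mul_le_mul_of_nonneg_left h4 Real.pi_pos.le
    linarith
  rw [← mul_assoc]
  exact mul_le_mul hmin hexp (Real.exp_pos _).le (mul_nonneg (by positivity)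
    (le_min zero_le_one h3))

/-- inner integral of the maximal inequality -/
lemma inner_En {B s : ℝ} (hB : 1 ≤ B) (hs : 0 < s) (hEnF : StEnF) {g : ℝ → ℂ} (hg : Good g)
    (x t : ℝ) :
    Integrable (fun a => ((kh B s a - kh B (2 * s) a : ℝ) : ℂ) * uh g g a t) ∧
    (∫ a, ((kh B s a - kh B (2 * s) a : ℝ) : ℂ) * uh g g a t * ex (x * a)).re
      = En B s x t g - En B (2 * s) x t g := by
  obtain ⟨i1, e1⟩ := hEnF B s (by linarith) hs g hg x t
  obtain ⟨i2, e2⟩ := hEnF B (2 * s) (by linarith) (by linarith) g hg x t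
  have hmul : ∀ f : ℝ → ℂ, Integrable f → Integrable (fun a => f a * ex (x * a)) := by
    intro f hf
    refine hf.mul_bdd (c := 1) ?_ (Filter.Eventually.of_forall fun a => (ex_norm _).le)
    exact (ex_cont.comp (by fun_prop : Continuous fun a : ℝ => x * a)).aestronglyMeasurable
  have e0 : ∀ a, ((kh B s a - kh B (2 * s) a : ℝ) : ℂ) * uh g g a t =
      (kh B s a : ℂ) * uh g g a t - (kh B (2 * s) a : ℂ) * uh g g a t := by
    intro a; push_cast; ring
  constructor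
  · simp_rw [e0]; exact i1.sub i2
  · have e3 : ∀ a, ((kh B s a - kh B (2 * s) a : ℝ) : ℂ) * uh g g a t * ex (x * a) =
        (kh B s a : ℂ) * uh g g a t * ex (x * a) - (kh B (2 * s) a : ℂ) * uh g g a t * ex (x * a) := by
      intro a; push_cast; ring
    simp_rw [e3]
    rw [integral_sub (hmul _ i1) (hmul _ i2), ← e1, ← e2, ← Complex.ofReal_sub, Complex.ofReal_re]

/-- square intervals -/
def Iv (S : ℝ) (p : ℤ) : Set ℝ := Ico ((p:ℝ) * S) (((p:ℝ) + 1) * S)

lemma vol_Iv {S : ℝ} (p : ℤ) : volume (Iv S p) = ENNReal.ofReal S := by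
  unfold Iv
  rw [Real.volume_Ico]
  congr 1
  ring

lemma mem_Iv {S : ℝ} (hS : 0 < S) {p : ℤ} {x : ℝ} : x ∈ Iv S p ↔ ⌊x / S⌋ = p := by
  rw [Int.floor_eq_iff, Iv, mem_Ico, le_div_iff₀ hS, div_lt_iff₀ hS]

lemma vol_union {S : ℝ} (hS : 0 < S) (Q : Finset ℤ) :
    volume (⋃ p ∈ Q, Iv S p) = ENNReal.ofReal (Q.card * S) := by
  rw [measure_biUnion_finset]
  · simp_rw [vol_Iv]
    rw [Finset.sum_const, nsmul_eq_mul, ENNReal.ofReal_mul (by positivity), ENNReal.ofReal_natCast]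
  · intro p _ p' _ hne
    rw [Function.onFun, Set.disjoint_left]
    intro x hx hx'
    rw [mem_Iv hS] at hx hx'
    exact hne (hx.symm.trans hx')
  · intro p _
    exact measurableSet_Ico

lemma En_intOn {B s : ℝ} (hB : 0 < B) (hs : 0 < s) {g : ℝ → ℂ} (hg : Good g) (t : ℝ) {A : Set ℝ}
    (hA : volume A < ⊤) : IntegrableOn (fun x => En B s x t g) A := by
  apply Measure.integrableOn_of_bounded (M := 2 / (Real.pi * (B * s)) * ms g) hA.ne
  · have h := (En_meas B s hg.1).comp (f := fun x : ℝ => (x, t)) (by fun_prop)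
    exact h.aestronglyMeasurable
  · refine Filter.Eventually.of_forall fun x => ?_
    rw [Real.norm_of_nonneg (En_nonneg hB hs _ _ _)]
    exact En_le stRep hB hs x t hg

/-- one time slice -/
lemma hl_slice {B CM : ℝ} (hB : 1 ≤ B) (hCM : 0 < CM) (hMax : MaxP B CM) (hEnF : StEnF) {S : ℝ}
    (hS : 0 < S) (N : ℕ) {g : ℝ → ℂ} (hg : Good g) (t : ℝ) (Q : Finset ℤ) {Y : ℝ} (hY : 0 < Y)
    (h : ∀ p ∈ Q, ∀ x ∈ Iv S p, Y ≤ En B S x t g - En B (2 ^ (N + 1) * S) x t g) :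
    (Q.card * S) * Y ^ 2 ≤ CM * (8 ^ (N + 1) * ∫ a, mu S a * ‖uh g g a t‖ ^ 2) := by
  have hB0 : 0 < B := by linarith
  set A : Set ℝ := ⋃ p ∈ Q, Iv S p with hA
  have hAv : volume A = ENNReal.ofReal (Q.card * S) := vol_union hS Q
  have hAf : volume A < ⊤ := by rw [hAv]; exact ENNReal.ofReal_lt_top
  have hAr : (volume A).toReal = Q.card * S := by
    rw [hAv, ENNReal.toReal_ofReal (by positivity)]
  have hAm : MeasurableSet A := Finset.measurableSet_biUnion _ fun p _ => measurableSet_Ico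
  have hsp : ∀ i : ℕ, 0 < 2 ^ i * S := fun i => by positivity
  have huh : Measurable (fun a => uh g g a t) := by
    have h := (uh_meas hg).comp (f := fun a : ℝ => (a, t)) (by fun_prop)
    exact h
  have key := hMax N (fun i => 2 ^ i * S) hsp (fun i => by rw [pow_succ]; ring) (fun _ => A)
    (fun _ => hAm) (fun _ => le_rfl) hAf (fun _ a => uh g g a t) (fun _ => huh)
    (fun i => H7.int_w (wgt_mu (hsp i)) hg hg t)
    (fun i => (inner_En hB (hsp i) hEnF hg 0 t).1) (2 * Y) (by positivity)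
  have e1 : ∑ i ∈ Finset.range (N + 1), (∫ x in A,
      (∫ a, ((kh B (2 ^ i * S) a - kh B (2 * (2 ^ i * S)) a : ℝ) : ℂ) * uh g g a t * ex (x * a)).re) =
      ∫ x in A, (En B S x t g - En B (2 ^ (N + 1) * S) x t g) := by
    have e2 : ∀ i ∈ Finset.range (N + 1), (∫ x in A,
        (∫ a, ((kh B (2 ^ i * S) a - kh B (2 * (2 ^ i * S)) a : ℝ) : ℂ) * uh g g a t *
          ex (x * a)).re) = ∫ x in A, (En B (2 ^ i * S) x t g - En B (2 ^ (i + 1) * S) x t g) := by
      intro i _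
      have e3 : 2 * (2 ^ i * S) = 2 ^ (i + 1) * S := by rw [pow_succ]; ring
      congr 1
      funext x
      rw [(inner_En hB (hsp i) hEnF hg x t).2, e3]
    rw [Finset.sum_congr rfl e2, ← integral_finset_sum]
    · congr 1
      funext x
      rw [Finset.sum_range_sub' (fun i => En B (2 ^ i * S) x t g)]
      rw [pow_zero, one_mul]
    · intro i _
      exact (En_intOn hB0 (hsp i) hg t hAf).sub (En_intOn hB0 (hsp (i + 1)) hg t hAf)
  rw [e1, hAr] at key
  have h2 : Y * (Q.card * S) ≤ ∫ x in A, (En B S x t g - En B (2 ^ (N + 1) * S) x t g) := by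
    have h3 : ∫ x in A, Y ≤ ∫ x in A, (En B S x t g - En B (2 ^ (N + 1) * S) x t g) := by
      apply setIntegral_mono_on
      · exact integrableOn_const hAf.ne
      · exact (En_intOn hB0 hS hg t hAf).sub (En_intOn hB0 (hsp (N + 1)) hg t hAf)
      · exact hAm
      · intro x hx
        rw [hA, mem_iUnion₂] at hx
        obtain ⟨p, hp, hx⟩ := hx
        exact h p hp x hx
    rw [setIntegral_const, smul_eq_mul, Measure.real, hAr] at h3
    linarith
  have h4 : ∑ i ∈ Finset.range (N + 1), ∫ a, mu (2 ^ i * S) a * ‖uh g g a t‖ ^ 2 ≤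
      8 ^ (N + 1) * ∫ a, mu S a * ‖uh g g a t‖ ^ 2 := by
    have h5 : ∀ i ∈ Finset.range (N + 1), ∫ a, mu (2 ^ i * S) a * ‖uh g g a t‖ ^ 2 ≤
        8 ^ i * ∫ a, mu S a * ‖uh g g a t‖ ^ 2 := by
      intro i _
      rw [← integral_const_mul]
      refine integral_mono (H7.int_w (wgt_mu (hsp i)) hg hg t)
        ((H7.int_w (wgt_mu hS) hg hg t).const_mul _) fun a => ?_
      show mu (2 ^ i * S) a * ‖uh g g a t‖ ^ 2 ≤ 8 ^ i * (mu S a * ‖uh g g a t‖ ^ 2)
      rw [← mul_assoc]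
      exact mul_le_mul_of_nonneg_right (mu_scale hS i a) (by positivity)
    refine (Finset.sum_le_sum h5).trans ?_
    rw [← Finset.sum_mul]
    apply mul_le_mul_of_nonneg_right _ (integral_nonneg fun a =>
      mul_nonneg (H7.mu_nonneg hS a) (by positivity))
    have h6 := geom_sum_eq (by norm_num : (8:ℝ) ≠ 1) (N + 1)
    rw [h6]
    have : (1:ℝ) ≤ 8 ^ (N + 1) := one_le_pow₀ (by norm_num)
    rw [div_le_iff₀ (by norm_num)]
    linarith
  set G : ℝ := 8 ^ (N + 1) * ∫ a, mu S a * ‖uh g g a t‖ ^ 2 with hG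
  have h7 : Y * (Q.card * S) ≤ 2 * Y / 4 * (Q.card * S) + CM / (2 * Y) * G := by
    refine h2.trans (key.trans ?_)
    exact add_le_add le_rfl (mul_le_mul_of_nonneg_left h4 (by positivity))
  have h8 : Y * (Q.card * S) / 2 ≤ CM / (2 * Y) * G := by linarith
  have h9 := mul_le_mul_of_nonneg_left h8 (by positivity : 0 ≤ 2 * Y)
  have e9 : 2 * Y * (CM / (2 * Y) * G) = CM * G := by field_simp
  rw [e9] at h9
  calc (Q.card * S) * Y ^ 2 = 2 * Y * (Y * (Q.card * S) / 2) := by ring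
    _ ≤ _ := h9

/-- all time slices -/
lemma hl_time {B CM : ℝ} (hB : 1 ≤ B) (hCM : 0 < CM) (hMax : MaxP B CM) (hEnF : StEnF) {S : ℝ}
    (hS : 0 < S) (K N : ℕ) {g : ℝ → ℂ} (hg : Good g) (F : Finset (ℤ × ℤ)) {Y : ℝ} (hY : 0 < Y)
    (hF : ∀ q ∈ F, 0 ≤ q.2 ∧ q.2 < K)
    (h : ∀ q ∈ F, ∀ x ∈ Iv S q.1, ∀ t ∈ Iv S q.2,
      Y ≤ En B S x t g - En B (2 ^ (N + 1) * S) x t g) :
    F.card * S ^ 2 * Y ^ 2 ≤ CM * (8 ^ (N + 1) *
      ∫ t in (0:ℝ)..(K * S), ∫ a, mu S a * ‖uh g g a t‖ ^ 2) := by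
  classical
  set G : ℝ → ℝ := fun t => ∫ a, mu S a * ‖uh g g a t‖ ^ 2 with hG
  have hGi : ∀ α β, IntervalIntegrable G volume α β := fun α β => H7.ii_w (wgt_mu hS) hg hg α β
  -- sum over the time windows
  have hcard : (F.card : ℝ) = ∑ k ∈ Finset.range K, ((F.filter (fun q => q.2 = (k:ℤ))).card : ℝ) := by
    rw [← Nat.cast_sum]
    congr 1
    rw [← Finset.card_biUnion]
    · congr 1
      ext q
      simp only [Finset.mem_biUnion, Finset.mem_range, Finset.mem_filter]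
      constructor
      · intro hq
        obtain ⟨h1, h2⟩ := hF q hq
        refine ⟨q.2.toNat, ?_, hq, ?_⟩
        · omega
        · omega
      · rintro ⟨k, _, hq, _⟩
        exact hq
    · intro k _ k' _ hne
      rw [Function.onFun, Finset.disjoint_left]
      intro q hq hq'
      rw [Finset.mem_filter] at hq hq'
      apply hne
      have := hq.2.symm.trans hq'.2
      exact_mod_cast this
  have hslice : ∀ k ∈ Finset.range K, ((F.filter (fun q => q.2 = (k:ℤ))).card : ℝ) * S ^ 2 * Y ^ 2 ≤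
      ∫ t in ((k:ℝ) * S)..(((k + 1 : ℕ) : ℝ) * S), CM * (8 ^ (N + 1) * G t) := by
    intro k _
    set Fk := F.filter (fun q => q.2 = (k:ℤ)) with hFk
    set Q : Finset ℤ := Fk.image Prod.fst with hQ
    have hQc : Q.card = Fk.card := by
      apply Finset.card_image_of_injOn
      intro q hq q' hq' he
      rw [Finset.mem_coe, hFk, Finset.mem_filter] at hq hq'
      exact Prod.ext he (hq.2.trans hq'.2.symm)
    have hle : (k:ℝ) * S ≤ ((k + 1 : ℕ) : ℝ) * S := by push_cast; nlinarith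
    have h3 : ∫ t in ((k:ℝ) * S)..(((k + 1 : ℕ) : ℝ) * S), (Fk.card : ℝ) * S * Y ^ 2 ≤
        ∫ t in ((k:ℝ) * S)..(((k + 1 : ℕ) : ℝ) * S), CM * (8 ^ (N + 1) * G t) := by
      apply intervalIntegral.integral_mono_on_of_le_Ioo hle
      · exact intervalIntegrable_const
      · exact ((hGi _ _).const_mul _).const_mul _
      · intro t ht
        have ht' : t ∈ Iv S (k:ℤ) := by
          unfold Iv
          push_cast at ht ⊢
          exact ⟨ht.1.le, ht.2⟩
        have h4 := hl_slice hB hCM hMax hEnF hS N hg t Q hY (by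
          intro p hp x hx
          rw [hQ, Finset.mem_image] at hp
          obtain ⟨q, hq, rfl⟩ := hp
          rw [hFk, Finset.mem_filter] at hq
          exact h q hq.1 x hx t (by rw [hq.2]; exact ht'))
        rw [hQc] at h4
        exact h4
    rw [intervalIntegral.integral_const, smul_eq_mul] at h3
    refine le_trans (le_of_eq ?_) h3
    push_cast
    ring
  rw [hcard, Finset.sum_mul, Finset.sum_mul]
  refine (Finset.sum_le_sum hslice).trans (le_of_eq ?_)
  have e := intervalIntegral.sum_integral_adjacent_intervals (a := fun k : ℕ => (k:ℝ) * S)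
    (f := fun t => CM * (8 ^ (N + 1) * G t)) (n := K) (μ := volume)
    (fun k _ => ((hGi _ _).const_mul _).const_mul _)
  rw [e]
  rw [intervalIntegral.integral_const_mul, intervalIntegral.integral_const_mul]
  simp

/-- the energy in time -/
lemma time_energy : ∃ C : ℝ, 0 < C ∧ ∀ (S : ℝ), 0 < S → ∀ (g : ℝ → ℂ), Good g → ∀ b : ℝ, 0 < b →
    (∀ y η, ‖cf S y η (S ^ 2 / 2) g‖ ≤ b * Real.sqrt S) →
    ∫ t in (0:ℝ)..(S ^ 2), ∫ a, mu S a * ‖uh g g a t‖ ^ 2 ≤ C * b ^ 2 * S ^ 2 * ms g := by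
  obtain ⟨c, hc, hT⟩ := H416.stTelA
  obtain ⟨CA, hCA, hAmp⟩ := stAmp
  have hCA0 : 0 < CA := by linarith
  refine ⟨4 / c * CA ^ 2, by positivity, ?_⟩
  intro S hS g hg b hb hcf
  have hS2 : 0 ≤ S ^ 2 := by positivity
  have h1 := H7.mu_int_le hS hg hS2
  have h2 := hT S hS 0 (S ^ 2) le_rfl g hg
  rw [zero_add] at h2
  have hamp : ∀ t : ℝ, 0 ≤ t → t ≤ S ^ 2 → H7.Amp (S / 2) t g (CA * (b * Real.sqrt S)) := by
    intro t h0 h1 y η
    apply hAmp S (S / 2) (S ^ 2 / 2) t (b * Real.sqrt S) hS (by linarith) (by linarith) _ g hg hcf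
    rw [abs_le]
    constructor <;> nlinarith
  have h3 : ∫ t in (0:ℝ)..(S ^ 2), (Fq (S / 2) t g g - Fq S t g g) ≤
      ∫ t in (0:ℝ)..(S ^ 2), (S / 2)⁻¹ * (ms g * (CA * (b * Real.sqrt S)) ^ 2) := by
    apply intervalIntegral.integral_mono_on hS2
    · exact (H7.ii_Fq stRep (by positivity) hg hg _ _).sub (H7.ii_Fq stRep hS hg hg _ _)
    · exact intervalIntegrable_const
    · intro t ht
      have h4 := H7.Fq_nonneg hS t g g
      have h5 := H7.Fq_le stRep (by positivity : 0 < S / 2) t hg (hamp t ht.1 ht.2)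
      linarith
  rw [intervalIntegral.integral_const, smul_eq_mul, sub_zero] at h3
  have h4 : (Real.sqrt S) ^ 2 = S := Real.sq_sqrt hS.le
  have e1 : S ^ 2 * ((S / 2)⁻¹ * (ms g * (CA * (b * Real.sqrt S)) ^ 2)) =
      2 * CA ^ 2 * b ^ 2 * S ^ 2 * ms g := by
    have : (CA * (b * Real.sqrt S)) ^ 2 = CA ^ 2 * b ^ 2 * S := by
      rw [mul_pow, mul_pow, h4]; ring
    rw [this]
    field_simp
  rw [e1] at h3
  have h5 : (∫ t in (0:ℝ)..(S ^ 2), ∫ a, H7.wt S a * ‖uh g g a t‖ ^ 2) ≤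
      2 * CA ^ 2 * b ^ 2 * S ^ 2 * ms g / c := by
    rw [le_div_iff₀ hc, mul_comm]
    exact h2.trans h3
  calc _ ≤ 2 * ∫ t in (0:ℝ)..(S ^ 2), ∫ a, H7.wt S a * ‖uh g g a t‖ ^ 2 := h1
    _ ≤ 2 * (2 * CA ^ 2 * b ^ 2 * S ^ 2 * ms g / c) := by linarith
    _ = _ := by field_simp; ring

end Vale.Agent.P076.H596
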