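import Vale.Agent.P076.H596.Avg
import Vale.Agent.P076.H596.HL
import Vale.Agent.P076.H629.XInt
import Vale.Agent.P076.H629.StX2
import Vale.Agent.P076.X.Prune2
import Vale.Agent.P076.H457.KerX
import Vale.Agent.P076.H263.MaxP

/-! # P076, [CRUDE]: one crude step `T → S` in one variable (helper596) -/

set_option linter.all false

open MeasureTheory Set

namespace Vale.Agent.P076.H596

open Vale.Agent.P076.X Vale.Agent.P076.H629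

/-- one crude step `T → S = 2^m` (one profile) -/
def StJump : Prop := ∀ K : ℝ, 1 ≤ K → ∀ ψ : ℝ → ℝ, Bump ψ → ∃ C K' : ℝ, 1 ≤ C ∧ 1 ≤ K' ∧
  ∀ (m : ℕ) (T : ℝ), (2:ℝ) ^ m ≤ T → ∀ g : ℝ → ℂ, Good g → (∀ ξ, g ξ ≠ 0 → |ξ| ≤ K) →
  ∀ Y α : ℝ, 0 < Y → 0 < α → ∃ (g' : ℝ → ℂ) (BB : Finset (ℤ × ℤ)), Good g' ∧
    (∀ ξ, g' ξ ≠ 0 → |ξ| ≤ K') ∧
    ms g' ≤ C * ms g ∧ α ^ 2 * BB.card ≤ C * (T / 2 ^ m) ^ 5 * ms g ∧
    ∀ x t, 0 ≤ t → t < (4:ℝ) ^ m → eW T x t g ≤ Y →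
      ‖sol (fun ξ => ψ ξ * g ξ) x t - sol (fun ξ => ψ ξ * g' ξ) x t‖ ≤ α / 2 ∧
      ((⌊x / 2 ^ m⌋, ⌊t / 2 ^ m⌋) ∉ BB → eW (2 ^ m) x t g' ≤ C * Y)

lemma finset_of_card_bound {ι : Type} {s : Set ι} {M : ℝ}
    (h : ∀ F : Finset ι, (∀ q ∈ F, q ∈ s) → (F.card : ℝ) ≤ M) :
    ∃ BB : Finset ι, (∀ q, q ∈ BB ↔ q ∈ s) ∧ (BB.card : ℝ) ≤ M := by
  have hfin : s.Finite := by
    by_contra hc
    have hinf : s.Infinite := hc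
    obtain ⟨n, hn⟩ := exists_nat_gt M
    obtain ⟨F, hF, hFc⟩ := hinf.exists_subset_card_eq n
    have := h F (fun q hq => hF hq)
    rw [hFc] at this
    linarith
  exact ⟨hfin.toFinset, fun q => hfin.mem_toFinset, h _ fun q hq => hfin.mem_toFinset.1 hq⟩

lemma bump_mul {χ : ℝ → ℝ} (hχ : Bump χ) : ∃ M R : ℝ, 1 ≤ M ∧ 1 ≤ R ∧ (∀ ξ, |χ ξ| ≤ M) ∧
    (∀ ξ, χ ξ ≠ 0 → |ξ| ≤ R) ∧ ∀ g : ℝ → ℂ, Good g → Good (fun ξ => χ ξ * g ξ) ∧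
      ms (fun ξ => χ ξ * g ξ) ≤ M ^ 2 * ms g := by
  obtain ⟨M, hM⟩ := hχ.2.exists_bound_of_continuous hχ.1.continuous
  obtain ⟨R, hR⟩ := hχ.2.isCompact.isBounded.subset_closedBall (0:ℝ)
  have hM' : ∀ ξ, |χ ξ| ≤ max M 1 := fun ξ => (hM ξ).trans (le_max_left _ _)
  refine ⟨max M 1, max R 1, le_max_right _ _, le_max_right _ _, hM', ?_, ?_⟩
  · intro ξ h
    have h1 : ξ ∈ Metric.closedBall (0:ℝ) R := hR (subset_tsupport _ h)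
    rw [mem_closedBall_zero_iff] at h1
    exact le_trans h1 (le_max_left _ _)
  · intro g hg
    have hm : AEStronglyMeasurable (fun ξ => (χ ξ : ℂ)) volume :=
      (Complex.continuous_ofReal.comp hχ.1.continuous).aestronglyMeasurable
    have hb : ∀ ξ, ‖(χ ξ : ℂ)‖ ≤ max M 1 := fun ξ => by rw [Complex.norm_real]; exact hM' ξ
    have h1 : Integrable (fun ξ => (χ ξ : ℂ) * g ξ) :=
      hg.1.bdd_mul hm (Filter.Eventually.of_forall hb)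
    have h2 : Integrable (fun ξ => ‖(χ ξ : ℂ) * g ξ‖ ^ 2) := by
      refine ((good_sq hg).const_mul ((max M 1) ^ 2)).mono' (h1.aestronglyMeasurable.norm.pow 2)
        (Filter.Eventually.of_forall fun ξ => ?_)
      rw [Real.norm_of_nonneg (by positivity), norm_mul, mul_pow]
      apply mul_le_mul_of_nonneg_right _ (by positivity)
      exact pow_le_pow_left₀ (norm_nonneg _) (hb ξ) 2
    refine ⟨⟨h1, (memLp_two_iff_integrable_sq_norm h1.aestronglyMeasurable).2 h2⟩, ?_⟩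
    unfold ms
    rw [← integral_const_mul]
    refine integral_mono h2 ((good_sq hg).const_mul _) fun ξ => ?_
    show ‖(χ ξ : ℂ) * g ξ‖ ^ 2 ≤ (max M 1) ^ 2 * ‖g ξ‖ ^ 2
    rw [norm_mul, mul_pow]
    apply mul_le_mul_of_nonneg_right _ (by positivity)
    exact pow_le_pow_left₀ (norm_nonneg _) (hb ξ) 2

lemma eW_scale {T T' : ℝ} (hT : 0 < T) (h1 : T ≤ T') (h2 : T' ≤ 2 * T) {g : ℝ → ℂ} (hg : Good g)
    (x t : ℝ) : eW T' x t g ≤ 8 * eW T x t g := by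
  unfold eW
  rw [← integral_const_mul]
  refine integral_mono (eW_int (hT.trans_le h1) hg x t) ((eW_int hT hg x t).const_mul _) fun y => ?_
  show W T' (x - y) * ‖sol g y t‖ ^ 2 ≤ 8 * (W T (x - y) * ‖sol g y t‖ ^ 2)
  rw [← mul_assoc]
  apply mul_le_mul_of_nonneg_right _ (by positivity)
  have h3 : 1 ≤ T' / T := by rwa [one_le_div hT]
  have h4 := H972.W_scale_le h3 hT (x - y)
  have e : T' / T * T = T' := by field_simp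
  rw [e] at h4
  refine h4.trans ?_
  apply mul_le_mul_of_nonneg_right _ (W_nonneg hT _)
  have h5 : T' / T ≤ 2 := by rw [div_le_iff₀ hT]; exact h2
  have h6 := pow_le_pow_left₀ (by linarith) h5 3
  linarith

lemma eW_small {S T : ℝ} (hS : 0 < S) (hT : S ≤ T) {g : ℝ → ℂ} (hg : Good g) (x t : ℝ) :
    eW S x t g ≤ T / S * eW T x t g := by
  unfold eW
  rw [← integral_const_mul]
  refine integral_mono (eW_int hS hg x t) ((eW_int (hS.trans_le hT) hg x t).const_mul _) fun y => ?_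
  show W S (x - y) * ‖sol g y t‖ ^ 2 ≤ T / S * (W T (x - y) * ‖sol g y t‖ ^ 2)
  rw [← mul_assoc]
  exact mul_le_mul_of_nonneg_right (W_small hS hT _) (by positivity)

/-- the energy at scale `T'` near a point where it is small at scale `T` -/
lemma near_bound {B : ℝ} (hB : 1 ≤ B) {CW C0 : ℝ} (hCW : 0 < CW) (hC0 : 0 < C0)
    (hEW : ∀ s : ℝ, 0 < s → ∀ g : ℝ → ℂ, Good g → ∀ x t : ℝ,
      Integrable (fun y => W s (x - y) * ‖sol g y t‖ ^ 2) ∧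
      En B s x t g ≤ CW * ∫ y, W s (x - y) * ‖sol g y t‖ ^ 2) {ψ₀ : ℝ → ℝ}
    (hB0 : ∀ s : ℝ, 1 ≤ s → ∀ x₀ t₁ x t : ℝ, |x - x₀| ≤ 4 * s → |t - t₁| ≤ 4 * s →
      ∀ h : ℝ → ℂ, Good h → En B s x t (fun ξ => ψ₀ ξ * h ξ) ≤ C0 * En B s x₀ t₁ h)
    {S T T' : ℝ} (hS1 : 1 ≤ S) (hT : S ≤ T) (hTT' : T ≤ T') (hT'T : T' ≤ 2 * T) {g g1 : ℝ → ℂ}
    (hg : Good g) (hg1 : Good g1) (hψg : (fun ξ => (ψ₀ ξ : ℂ) * g ξ) = g) {t : ℝ}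
    (hEn1 : ∀ x, En B S x t g1 ≤ En B S x t g) {x₀ t₀ x Y : ℝ} (he : eW T x₀ t₀ g ≤ Y)
    (hx : |x - x₀| ≤ S) (ht : |t - t₀| ≤ S) :
    En B T' x t g1 ≤ (CW * (36 * (9 * B * Real.exp (2 * Real.pi) * CW) * 256) * 8 *
      (9 * B * Real.exp (2 * Real.pi) * (C0 * CW))) * Y := by
  have hSp : 0 < S := by linarith
  have hTp : 0 < T := hSp.trans_le hT
  have hT'p : 0 < T' := hTp.trans_le hTT'
  have hBp : 0 < B := by linarith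
  set RB : ℝ := 9 * B * Real.exp (2 * Real.pi) with hRB
  have hRBp : 0 < RB := by positivity
  have a1 : En B T x₀ t₀ g ≤ CW * Y :=
    ((hEW T hTp g hg x₀ t₀).2).trans (mul_le_mul_of_nonneg_left he hCW.le)
  have a2 := hB0 T (hS1.trans hT) x₀ t₀ x t (by linarith) (by linarith) g hg
  rw [hψg] at a2
  have a3 : En B T x t g ≤ C0 * (CW * Y) := a2.trans (mul_le_mul_of_nonneg_left a1 hC0.le)
  have a4 : eW T x t g ≤ RB * (C0 * (CW * Y)) :=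
    (eW_le_En hB hTp hg x t).trans (mul_le_mul_of_nonneg_left a3 hRBp.le)
  have a5 : eW T' x t g ≤ 8 * (RB * (C0 * (CW * Y))) :=
    (eW_scale hTp hTT' hT'T hg x t).trans (mul_le_mul_of_nonneg_left a4 (by norm_num))
  have a6 := eW_trans hB hSp (hT.trans hTT') hCW hEW hg hg1 hEn1 x
  have a7 : eW T' x t g1 ≤ 36 * (RB * CW) * 256 * (8 * (RB * (C0 * (CW * Y)))) :=
    a6.trans (mul_le_mul_of_nonneg_left a5 (by positivity))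
  have a8 := (hEW T' hT'p g1 hg1 x t).2
  calc En B T' x t g1 ≤ CW * eW T' x t g1 := a8
    _ ≤ CW * (36 * (RB * CW) * 256 * (8 * (RB * (C0 * (CW * Y))))) :=
        mul_le_mul_of_nonneg_left a7 hCW.le
    _ = _ := by ring

lemma card_alg {n S A₁ Y CM E8 I CE b M1 M P α CK CW : ℝ} (hS : 0 < S) (hA₁ : 0 < A₁) (hY : 0 < Y)
    (hCM : 0 < CM) (hCE : 0 < CE) (hα : 0 < α) (hP : 0 < P) (hM0 : 0 ≤ M) (hCK : 0 < CK) (hCW : 0 < CW)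
    (h1 : n * S ^ 2 * (A₁ * Y) ^ 2 ≤ CM * (E8 * I)) (hE0 : 0 ≤ E8)
    (h2 : I ≤ CE * b ^ 2 * S ^ 2 * M1) (hM : M1 ≤ M) (h8 : E8 ≤ 8 * P ^ 3)
    (hb : b = 4 * CK * CW * P * Y / α) :
    n ≤ (CM * 8 * CE * (4 * CK * CW) ^ 2 / A₁ ^ 2) * P ^ 5 * M / α ^ 2 := by
  have h5 : 0 ≤ CE * b ^ 2 * S ^ 2 := by positivity
  have h6 : CE * b ^ 2 * S ^ 2 * M1 ≤ CE * b ^ 2 * S ^ 2 * M := mul_le_mul_of_nonneg_left hM h5
  have h7 : 0 ≤ CE * b ^ 2 * S ^ 2 * M := mul_nonneg h5 hM0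
  have h3 : CM * (E8 * I) ≤ CM * (8 * P ^ 3 * (CE * b ^ 2 * S ^ 2 * M)) := by
    apply mul_le_mul_of_nonneg_left _ hCM.le
    calc E8 * I ≤ E8 * (CE * b ^ 2 * S ^ 2 * M) := mul_le_mul_of_nonneg_left (h2.trans h6) hE0
      _ ≤ _ := mul_le_mul_of_nonneg_right h8 h7
  have h4 := h1.trans h3
  have e2 : CM * (8 * P ^ 3 * (CE * b ^ 2 * S ^ 2 * M)) =
      ((CM * 8 * CE * (4 * CK * CW) ^ 2 / A₁ ^ 2) * P ^ 5 * M / α ^ 2) * (S ^ 2 * (A₁ * Y) ^ 2) := by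
    rw [hb]; field_simp
  rw [e2, mul_assoc n] at h4
  exact le_of_mul_le_mul_right h4 (by positivity)

lemma Iv_near {S : ℝ} (hS : 0 < S) {p : ℤ} {u v : ℝ} (hu : u ∈ Iv S p) (hv : v ∈ Iv S p) :
    |u - v| ≤ S := by
  unfold Iv at hu hv
  rw [mem_Ico] at hu hv
  rw [abs_le]
  constructor <;> nlinarith [hu.1, hu.2, hv.1, hv.2]

/-- a point of the same time window stays in `[0, S²)` -/
lemma Iv_time {m : ℕ} {t₀ t : ℝ} (h0 : 0 ≤ t₀) (h1 : t₀ < ((2:ℝ) ^ m) ^ 2)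
    (ht : t ∈ Iv (2 ^ m) ⌊t₀ / 2 ^ m⌋) : 0 ≤ t ∧ t < ((2:ℝ) ^ m) ^ 2 ∧
      (0:ℤ) ≤ ⌊t₀ / 2 ^ m⌋ ∧ ⌊t₀ / 2 ^ m⌋ < ((2 ^ m : ℕ) : ℤ) := by
  set S : ℝ := 2 ^ m with hS
  have hSp : 0 < S := by positivity
  have hq0 : (0:ℤ) ≤ ⌊t₀ / S⌋ := Int.floor_nonneg.mpr (by positivity)
  have hqm : (⌊t₀ / S⌋ : ℤ) < ((2 ^ m : ℕ) : ℤ) := by
    rw [Int.floor_lt]
    push_cast
    rw [div_lt_iff₀ hSp, ← hS]
    linarith [sq S]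
  unfold Iv at ht
  rw [mem_Ico] at ht
  refine ⟨?_, ?_, hq0, hqm⟩
  · have h3 : (0:ℝ) ≤ (⌊t₀ / S⌋ : ℝ) := by exact_mod_cast hq0
    have h4 : (0:ℝ) ≤ (⌊t₀ / S⌋ : ℝ) * S := by positivity
    linarith [ht.1]
  · have h3 : ((⌊t₀ / S⌋ : ℝ) + 1) ≤ 2 ^ m := by exact_mod_cast hqm
    rw [← hS] at h3
    have h4 := mul_le_mul_of_nonneg_right h3 hSp.le
    nlinarith [ht.2]

/-- number of bad squares -/
lemma bad_card {B CM : ℝ} (hB : 1 ≤ B) (hCM : 0 < CM) (hMx : MaxP B CM) {CE : ℝ} (hCE : 0 < CE)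
    (hTE : ∀ (S : ℝ), 0 < S → ∀ (g : ℝ → ℂ), Good g → ∀ b : ℝ, 0 < b →
      (∀ y η, ‖cf S y η (S ^ 2 / 2) g‖ ≤ b * Real.sqrt S) →
      ∫ t in (0:ℝ)..(S ^ 2), ∫ a, mu S a * ‖uh g g a t‖ ^ 2 ≤ CE * b ^ 2 * S ^ 2 * ms g)
    {CX RB : ℝ} (hCX : 0 < CX) (hRB : RB = 9 * B * Real.exp (2 * Real.pi)) {χ : ℝ → ℝ}
    (hBX : ∀ s : ℝ, 1 ≤ s → ∀ x₀ t₁ x t : ℝ, |x - x₀| ≤ 4 * s → |t - t₁| ≤ 4 * s →
      ∀ h : ℝ → ℂ, Good h → En B s x t (fun ξ => χ ξ * h ξ) ≤ CX * En B s x₀ t₁ h)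
    {m N : ℕ} {T P α Y A₁ b CK CW : ℝ} (hα : 0 < α) (hY : 0 < Y) (hA₁ : 0 < A₁) (hCK : 0 < CK)
    (hCW : 0 < CW) (hb : b = 4 * CK * CW * P * Y / α) (hbp : 0 < b) (hP : 1 ≤ P) (hN : 2 ^ N ≤ P)
    {g g1 : ℝ → ℂ} (hg1 : Good g1) (hχ1 : Good (fun ξ => χ ξ * g1 ξ)) (hms1 : ms g1 ≤ ms g)
    (hsm : ∀ y η, ‖cf (2 ^ m) y η (((2:ℝ) ^ m) ^ 2 / 2) g1‖ ≤ b * Real.sqrt (2 ^ m))
    (hnear : ∀ x₀ t₀ x t : ℝ, eW T x₀ t₀ g ≤ Y → |x - x₀| ≤ 2 ^ m → |t - t₀| ≤ 2 ^ m → 0 ≤ t →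
      t < ((2:ℝ) ^ m) ^ 2 → En B (2 ^ (N + 1) * 2 ^ m) x t g1 ≤ A₁ * Y)
    (F : Finset (ℤ × ℤ)) (hF : ∀ q ∈ F, ∃ x t : ℝ, 0 ≤ t ∧ t < ((2:ℝ) ^ m) ^ 2 ∧ eW T x t g ≤ Y ∧
      (2 * A₁ * (RB * CX)) * Y < eW (2 ^ m) x t (fun ξ => χ ξ * g1 ξ) ∧
        q = (⌊x / 2 ^ m⌋, ⌊t / 2 ^ m⌋)) :
    (F.card : ℝ) ≤ (CM * 8 * CE * (4 * CK * CW) ^ 2 / A₁ ^ 2) * P ^ 5 * ms g / α ^ 2 := by
  have hSp : (0:ℝ) < 2 ^ m := by positivity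
  have hS1 : (1:ℝ) ≤ 2 ^ m := one_le_pow₀ (by norm_num)
  have hB0 : 0 < B := by linarith
  have hRBp : 0 < RB := by rw [hRB]; positivity
  have hlow : ∀ q ∈ F, ∀ x ∈ Iv (2 ^ m) q.1, ∀ t ∈ Iv (2 ^ m) q.2,
      A₁ * Y ≤ En B (2 ^ m) x t g1 - En B (2 ^ (N + 1) * 2 ^ m) x t g1 := by
    intro q hq x hx t ht
    obtain ⟨x₀, t₀, h0, h1, he, hl, rfl⟩ := hF q hq
    have hx' := Iv_near hSp hx ((mem_Iv hSp).2 rfl : x₀ ∈ Iv (2 ^ m) ⌊x₀ / 2 ^ m⌋)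
    have ht' := Iv_near hSp ht ((mem_Iv hSp).2 rfl : t₀ ∈ Iv (2 ^ m) ⌊t₀ / 2 ^ m⌋)
    obtain ⟨ht0, ht1, -, -⟩ := Iv_time h0 h1 ht
    have b1 := hnear x₀ t₀ x t he hx' ht' ht0 ht1
    have b2 := eW_le_En hB hSp hχ1 x₀ t₀
    have b3 := hBX (2 ^ m) hS1 x t x₀ t₀ (by rw [abs_sub_comm]; linarith)
      (by rw [abs_sub_comm]; linarith) g1 hg1
    rw [← hRB] at b2
    have b4 : (2 * A₁ * (RB * CX)) * Y < RB * (CX * En B (2 ^ m) x t g1) :=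
      hl.trans_le (b2.trans (mul_le_mul_of_nonneg_left b3 hRBp.le))
    have b5 : 2 * (A₁ * Y) < En B (2 ^ m) x t g1 := by
      have e1 : (2 * A₁ * (RB * CX)) * Y = (RB * CX) * (2 * (A₁ * Y)) := by ring
      have e2 : RB * (CX * En B (2 ^ m) x t g1) = (RB * CX) * En B (2 ^ m) x t g1 := by ring
      rw [e1, e2] at b4
      exact lt_of_mul_lt_mul_left b4 (by positivity)
    linarith
  have hrange : ∀ q ∈ F, 0 ≤ q.2 ∧ q.2 < ((2 ^ m : ℕ) : ℤ) := by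
    intro q hq
    obtain ⟨x₀, t₀, h0, h1, he, hl, rfl⟩ := hF q hq
    obtain ⟨-, -, h2, h3⟩ := Iv_time h0 h1 ((mem_Iv hSp).2 rfl : t₀ ∈ Iv (2 ^ m) ⌊t₀ / 2 ^ m⌋)
    exact ⟨h2, h3⟩
  have h1 := hl_time hB hCM hMx H972.stEnF hSp (2 ^ m) N hg1 F (by positivity : 0 < A₁ * Y)
    hrange hlow
  have h2 := hTE (2 ^ m) hSp g1 hg1 b hbp hsm
  have e1 : (((2 ^ m : ℕ) : ℝ) * 2 ^ m) = ((2:ℝ) ^ m) ^ 2 := by push_cast; ring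
  rw [e1] at h1
  have h8 : (8:ℝ) ^ (N + 1) ≤ 8 * P ^ 3 := by
    rw [pow_succ]
    have h9 : (8:ℝ) ^ N = (2 ^ N) ^ 3 := by rw [← pow_mul, mul_comm, pow_mul]; norm_num
    rw [h9]
    have := pow_le_pow_left₀ (by positivity) hN 3
    linarith
  exact card_alg hSp hA₁ hY hCM hCE hα (by linarith) (ms_nonneg g) hCK hCW h1 (by positivity) h2 hms1
    h8 hb

theorem stJump (hBern : StBern) : StJump := by
  intro K hK ψ hψ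
  obtain ⟨B, hB, hPr⟩ := stPrune
  obtain ⟨C₁, hC₁, hPr⟩ := hPr 1 le_rfl
  obtain ⟨CM, hCM, hMx⟩ := H263.stMaxP B hB
  obtain ⟨CW, hCW, hEW⟩ := H972.stEnW B hB
  obtain ⟨CK, hCK, hKer⟩ := H457.stKer B hB ψ hψ
  obtain ⟨-, R₀, -, hR₀, -, hψR, -⟩ := bump_mul hψ
  obtain ⟨χ, hχ, hχ1⟩ := bump_one R₀ hR₀
  obtain ⟨Mχ, Rχ, hMχ, hRχ, -, hχR, hχm⟩ := bump_mul hχ
  obtain ⟨CX, hCX, hBX⟩ := hBern B hB χ hχ
  obtain ⟨ψ₀, hψ₀, hψ₀1⟩ := bump_one K hK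
  obtain ⟨C0, hC0, hB0'⟩ := hBern B hB ψ₀ hψ₀
  obtain ⟨CE, hCE, hTE⟩ := time_energy
  have hB0 : 0 < B := by linarith
  obtain ⟨RB, hRB⟩ : ∃ RB : ℝ, RB = 9 * B * Real.exp (2 * Real.pi) := ⟨_, rfl⟩
  have hRBp : 0 < RB := by rw [hRB]; positivity
  obtain ⟨A₁, hA₁⟩ : ∃ A₁ : ℝ, A₁ = CW * (36 * (RB * CW) * 256) * 8 * (RB * (C0 * CW)) := ⟨_, rfl⟩
  have hA₁p : 0 < A₁ := by rw [hA₁]; positivity
  obtain ⟨A₂, hA₂⟩ : ∃ A₂ : ℝ, A₂ = 2 * A₁ * (RB * CX) := ⟨_, rfl⟩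
  have hA₂p : 0 < A₂ := by rw [hA₂]; positivity
  obtain ⟨A₃, hA₃⟩ : ∃ A₃ : ℝ, A₃ = CM * 8 * CE * (4 * CK * CW) ^ 2 / A₁ ^ 2 := ⟨_, rfl⟩
  have hA₃p : 0 < A₃ := by rw [hA₃]; positivity
  refine ⟨1 + A₂ + A₃ + Mχ ^ 2, Rχ, by nlinarith [sq_nonneg Mχ], hRχ, ?_⟩
  intro m T hT g hg hsupp Y α hY hα
  have hSp : (0:ℝ) < 2 ^ m := by positivity
  have hS1 : (1:ℝ) ≤ 2 ^ m := one_le_pow₀ (by norm_num)
  have hTp : 0 < T := hSp.trans_le hT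
  have h4m : (4:ℝ) ^ m = ((2:ℝ) ^ m) ^ 2 := by rw [← pow_mul, mul_comm, pow_mul]; norm_num
  obtain ⟨P, hP⟩ : ∃ P : ℝ, P = T / 2 ^ m := ⟨_, rfl⟩
  have hP1 : 1 ≤ P := by rw [hP, one_le_div hSp]; exact hT
  have hPp : 0 < P := by linarith
  obtain ⟨N, hN1, hN2⟩ := exists_nat_pow_near hP1 (by norm_num : (1:ℝ) < 2)
  have hTT' : T ≤ 2 ^ (N + 1) * 2 ^ m := by
    rw [hP, div_lt_iff₀ hSp] at hN2
    exact hN2.le
  have hT'T : 2 ^ (N + 1) * 2 ^ m ≤ 2 * T := by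
    rw [hP, le_div_iff₀ hSp] at hN1
    rw [pow_succ]
    linarith
  -- pruning at scale `S`
  obtain ⟨b, hb⟩ : ∃ b : ℝ, b = 4 * CK * CW * P * Y / α := ⟨_, rfl⟩
  have hbp : 0 < b := by rw [hb]; positivity
  obtain ⟨g1, n, c, y, η, hPn⟩ := hPr (2 ^ m) (((2:ℝ) ^ m) ^ 2 / 2) b hSp hbp g hg
  have hg1 := hPn.good'
  obtain ⟨hGχ, hmχ⟩ := hχm g1 hg1
  have hms1 : ms g1 ≤ ms g := by
    have h1 := hPn.mass
    have h2 : 0 ≤ ∑ i ∈ Finset.range n, ‖c i‖ ^ 2 := Finset.sum_nonneg fun i _ => by positivity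
    linarith
  have hEn1 : ∀ t : ℝ, |t - ((2:ℝ) ^ m) ^ 2 / 2| ≤ ((2:ℝ) ^ m) ^ 2 → ∀ x,
      En B (2 ^ m) x t g1 ≤ En B (2 ^ m) x t g := by
    intro t ht x
    have h1 := hPn.lo x t ht
    have h2 : 0 ≤ (1/2) * ∑ i ∈ Finset.range n, ‖c i‖ ^ 2 *
        W (B * 2 ^ m) (x - y i - 2 * η i * (t - ((2:ℝ) ^ m) ^ 2 / 2)) :=
      mul_nonneg (by norm_num) (Finset.sum_nonneg fun i _ =>
        mul_nonneg (by positivity) (W_nonneg (by positivity) _))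
    linarith
  have htime : ∀ t : ℝ, 0 ≤ t → t < ((2:ℝ) ^ m) ^ 2 → |t - ((2:ℝ) ^ m) ^ 2 / 2| ≤ ((2:ℝ) ^ m) ^ 2 := by
    intro t h0 h1
    rw [abs_le]
    constructor <;> linarith
  have hψg : (fun ξ => (ψ₀ ξ : ℂ) * g ξ) = g := by
    funext ξ
    by_cases h : g ξ = 0
    · rw [h, mul_zero]
    · rw [hψ₀1 ξ (hsupp ξ h)]; simp
  have hnear : ∀ x₀ t₀ x t : ℝ, eW T x₀ t₀ g ≤ Y → |x - x₀| ≤ 2 ^ m → |t - t₀| ≤ 2 ^ m → 0 ≤ t →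
      t < ((2:ℝ) ^ m) ^ 2 → En B (2 ^ (N + 1) * 2 ^ m) x t g1 ≤ A₁ * Y := by
    intro x₀ t₀ x t he hx ht h0 h1
    have h := near_bound hB hCW hC0 hEW
      (fun s hs x₀ t₁ x t h1 h2 h hh => (hB0' s hs x₀ t₁ x t h1 h2 h hh).2)
      hS1 hT hTT' hT'T hg hg1 hψg (hEn1 t (htime t h0 h1)) he hx ht
    rw [hA₁, hRB]
    exact h
  -- bad squares
  have hbad := fun (F : Finset (ℤ × ℤ)) => bad_card hB hCM hMx hCE hTE hCX hRB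
    (fun s hs x₀ t₁ x t h1 h2 h hh => (hBX s hs x₀ t₁ x t h1 h2 h hh).2)
    hα hY hA₁p hCK hCW hb hbp hP1 hN1 hg1 hGχ hms1 hPn.small hnear F
  rw [← hA₃, ← hA₂] at hbad
  obtain ⟨BB, hBB, hBBc⟩ := finset_of_card_bound (s := {q | ∃ x t : ℝ, 0 ≤ t ∧
    t < ((2:ℝ) ^ m) ^ 2 ∧ eW T x t g ≤ Y ∧ A₂ * Y < eW (2 ^ m) x t (fun ξ => χ ξ * g1 ξ) ∧
    q = (⌊x / 2 ^ m⌋, ⌊t / 2 ^ m⌋)}) hbad
  refine ⟨fun ξ => χ ξ * g1 ξ, BB, hGχ, ?_, ?_, ?_, ?_⟩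
  · intro ξ h
    apply hχR
    intro h'
    apply h
    show (χ ξ : ℂ) * g1 ξ = 0
    rw [h']; simp
  · have h0 := ms_nonneg g
    calc _ ≤ _ := hmχ
      _ ≤ Mχ ^ 2 * ms g := mul_le_mul_of_nonneg_left hms1 (sq_nonneg _)
      _ ≤ _ := mul_le_mul_of_nonneg_right (by linarith) h0
  · have h0 := ms_nonneg g
    rw [le_div_iff₀ (by positivity)] at hBBc
    rw [← hP]
    calc α ^ 2 * (BB.card : ℝ) = BB.card * α ^ 2 := by ring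
      _ ≤ A₃ * P ^ 5 * ms g := hBBc
      _ ≤ _ := by
          apply mul_le_mul_of_nonneg_right _ h0
          apply mul_le_mul_of_nonneg_right _ (by positivity)
          have := sq_nonneg Mχ
          linarith
  · intro x t h0 h1 he
    rw [h4m] at h1
    have hχψ : (fun ξ => (ψ ξ : ℂ) * ((χ ξ : ℂ) * g1 ξ)) = fun ξ => ψ ξ * g1 ξ := by
      funext ξ
      by_cases h : ψ ξ = 0
      · rw [h]; simp
      · rw [hχ1 ξ (hψR ξ h)]; simp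
    refine ⟨?_, ?_⟩
    · show ‖sol (fun ξ => ψ ξ * g ξ) x t - sol (fun ξ => (ψ ξ : ℂ) * ((χ ξ : ℂ) * g1 ξ)) x t‖ ≤ α / 2
      rw [hχψ]
      have h2 := step_diff hPn hSp hbp hB hψ hCK (x := x) (t := t) (t' := t)
        (fun y η => hKer (2 ^ m) hS1 y η _ t t x (htime t h0 h1)
          (by rw [sub_self, abs_zero]; positivity))
        (htime t h0 h1)
      refine h2.trans ?_
      have h3 : 0 ≤ En B (2 ^ m) x t g1 := En_nonneg hB0 hSp _ _ _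
      have h4 : En B (2 ^ m) x t g ≤ CW * (P * Y) := by
        have h5 := (hEW (2 ^ m) hSp g hg x t).2
        have h6 := (eW_small hSp hT hg x t).trans
          (mul_le_mul_of_nonneg_left he (by rw [← hP]; exact hPp.le))
        rw [← hP] at h6
        exact h5.trans (mul_le_mul_of_nonneg_left h6 hCW.le)
      calc 2 * CK / b * (En B (2 ^ m) x t g - En B (2 ^ m) x t g1) ≤ 2 * CK / b * (CW * (P * Y)) := by
            apply mul_le_mul_of_nonneg_left _ (by positivity)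
            linarith
        _ = α / 2 := by rw [hb]; field_simp; norm_num
    · intro hnot
      by_contra hc
      push Not at hc
      apply hnot
      rw [hBB]
      refine ⟨x, t, h0, h1, he, ?_, rfl⟩
      refine lt_of_le_of_lt ?_ hc
      apply mul_le_mul_of_nonneg_right _ hY.le
      have := sq_nonneg Mχ
      linarith

end Vale.Agent.P076.H596
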