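import Vale.Agent.P076.H972.EnW
import Vale.Agent.P076.H629.XBase

/-! # P076, [CRUDE]: comparison of weights at two scales (helper596) -/

set_option linter.all false

open MeasureTheory Set

namespace Vale.Agent.P076.H596

open Vale.Agent.P076.X Vale.Agent.P076.H629

/-- plain weighted mass at scale `r` -/
noncomputable def eW (r x t : ℝ) (g : ℝ → ℂ) : ℝ := ∫ y, W r (x - y) * ‖sol g y t‖ ^ 2

lemma W_even (r x : ℝ) : W r (-x) = W r x := by unfold W; simp

lemma W_small {S T : ℝ} (hS : 0 < S) (hT : S ≤ T) (u : ℝ) : W S u ≤ T / S * W T u := by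
  have hT0 : 0 < T := hS.trans_le hT
  unfold W
  have h1 : 1 + u ^ 2 / T ^ 2 ≤ 1 + u ^ 2 / S ^ 2 := by
    have : u ^ 2 / T ^ 2 ≤ u ^ 2 / S ^ 2 := by gcongr
    linarith
  have h2 : ((1 + u ^ 2 / S ^ 2) ^ 2)⁻¹ ≤ ((1 + u ^ 2 / T ^ 2) ^ 2)⁻¹ := by
    apply inv_anti₀ (by positivity)
    exact pow_le_pow_left₀ (by positivity) h1 2
  calc 2 / (Real.pi * S) * ((1 + u ^ 2 / S ^ 2) ^ 2)⁻¹
      ≤ 2 / (Real.pi * S) * ((1 + u ^ 2 / T ^ 2) ^ 2)⁻¹ :=
        mul_le_mul_of_nonneg_left h2 (by positivity)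
    _ = _ := by field_simp

/-- for `|b| ≥ T ≥ S` the tail of `W S` is below the one of `W T` -/
lemma W_tail {S T : ℝ} (hS : 0 < S) (hT : S ≤ T) {b : ℝ} (hb : T ≤ |b|) : W S b ≤ 4 * W T b := by
  have hT0 : 0 < T := hS.trans_le hT
  unfold W
  have hb2 : T ^ 2 ≤ b ^ 2 := by
    rw [← sq_abs b]; exact pow_le_pow_left₀ hT0.le hb 2
  have hb0 : 0 < b ^ 2 := lt_of_lt_of_le (by positivity) hb2
  have h1 : ((1 + b ^ 2 / S ^ 2) ^ 2)⁻¹ ≤ S ^ 4 / (b ^ 2) ^ 2 := by
    rw [inv_le_comm₀ (by positivity) (by positivity)]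
    have e : (S ^ 4 / (b ^ 2) ^ 2)⁻¹ = (b ^ 2 / S ^ 2) ^ 2 := by field_simp
    rw [e]
    apply pow_le_pow_left₀ (by positivity)
    linarith
  have h2 : T ^ 4 / (4 * (b ^ 2) ^ 2) ≤ ((1 + b ^ 2 / T ^ 2) ^ 2)⁻¹ := by
    rw [le_inv_comm₀ (by positivity) (by positivity)]
    have e : (T ^ 4 / (4 * (b ^ 2) ^ 2))⁻¹ = (2 * (b ^ 2 / T ^ 2)) ^ 2 := by field_simp; ring
    rw [e]
    apply pow_le_pow_left₀ (by positivity)
    have : 1 ≤ b ^ 2 / T ^ 2 := by rw [le_div_iff₀ (by positivity)]; linarith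
    linarith
  have h3 : S ^ 3 ≤ T ^ 3 := pow_le_pow_left₀ hS.le hT 3
  calc 2 / (Real.pi * S) * ((1 + b ^ 2 / S ^ 2) ^ 2)⁻¹
      ≤ 2 / (Real.pi * S) * (S ^ 4 / (b ^ 2) ^ 2) := mul_le_mul_of_nonneg_left h1 (by positivity)
    _ = 2 / Real.pi * (S ^ 3 / (b ^ 2) ^ 2) := by field_simp
    _ ≤ 2 / Real.pi * (T ^ 3 / (b ^ 2) ^ 2) := by gcongr
    _ = 4 * (2 / (Real.pi * T) * (T ^ 4 / (4 * (b ^ 2) ^ 2))) := by field_simp
    _ ≤ _ := by
        apply mul_le_mul_of_nonneg_left _ (by norm_num)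
        exact mul_le_mul_of_nonneg_left h2 (by positivity)

lemma W_half {T : ℝ} (hT : 0 < T) {a c : ℝ} (h : |c| ≤ 2 * |a|) : W T a ≤ 16 * W T c := by
  unfold W
  have h0 : c ^ 2 ≤ 4 * a ^ 2 := by
    rw [← sq_abs c, ← sq_abs a]
    have := pow_le_pow_left₀ (abs_nonneg _) h 2
    nlinarith
  have h1 : 1 + c ^ 2 / T ^ 2 ≤ 4 * (1 + a ^ 2 / T ^ 2) := by
    have : c ^ 2 / T ^ 2 ≤ 4 * (a ^ 2 / T ^ 2) := by
      rw [← mul_div_assoc]; gcongr
    linarith
  have h2 : ((1 + a ^ 2 / T ^ 2) ^ 2)⁻¹ ≤ 16 * ((1 + c ^ 2 / T ^ 2) ^ 2)⁻¹ := by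
    have h3 : (1 + c ^ 2 / T ^ 2) ^ 2 ≤ 16 * (1 + a ^ 2 / T ^ 2) ^ 2 := by
      have := pow_le_pow_left₀ (by positivity) h1 2
      nlinarith
    rw [← div_eq_mul_inv, le_div_iff₀ (by positivity), inv_mul_le_iff₀ (by positivity)]
    linarith
  calc 2 / (Real.pi * T) * ((1 + a ^ 2 / T ^ 2) ^ 2)⁻¹
      ≤ 2 / (Real.pi * T) * (16 * ((1 + c ^ 2 / T ^ 2) ^ 2)⁻¹) :=
        mul_le_mul_of_nonneg_left h2 (by positivity)
    _ = _ := by ring

/-- product of two weights -/
lemma W_prod {S T : ℝ} (hS : 0 < S) (hT : S ≤ T) (a b : ℝ) :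
    W T a * W S b ≤ 64 * W T (a + b) * (W S b + W T a) := by
  have hT0 : 0 < T := hS.trans_le hT
  have pa := W_nonneg hT0 a
  have pb := W_nonneg hS b
  have pc := W_nonneg hT0 (a + b)
  have q1 := mul_nonneg pc pb
  have q2 := mul_nonneg pc pa
  rcases le_total |b| T with h | h
  · have h1 : W T a ≤ 9 * W T (a + b) := by
      apply W_comp hT0
      have : a - (a + b) = -b := by ring
      rw [this, abs_neg]; exact h
    have h2 := mul_le_mul_of_nonneg_right h1 pb
    nlinarith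
  · rcases le_total |a| |b| with h' | h'
    · have h1 : W S b ≤ 4 * W T b := W_tail hS hT h
      have h2 : W T b ≤ 16 * W T (a + b) := by
        apply W_half hT0
        have := abs_add_le a b
        linarith
      have h3 : W S b ≤ 64 * W T (a + b) := by linarith
      have h4 := mul_le_mul_of_nonneg_left h3 pa
      nlinarith
    · have h2 : W T a ≤ 16 * W T (a + b) := by
        apply W_half hT0
        have := abs_add_le a b
        linarith
      have h4 := mul_le_mul_of_nonneg_right h2 pb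
      nlinarith

/-! ### lower bound of the kernel of `En` -/

lemma Wr_ge {B s : ℝ} (hB : 1 ≤ B) (hs : 0 < s) (x z : ℝ) :
    W s (x - z) ≤ 9 * B * Real.exp (2 * Real.pi) * H972.Wr (B * s) s x z := by
  have hB0 : 0 < B := by linarith
  have hBs : 0 < B * s := mul_pos hB0 hs
  have hsB : s ≤ B * s := by nlinarith
  have h1 : W s (x - z) ≤ B * W (B * s) (x - z) := by
    have := W_small hs hsB (x - z)
    have e : B * s / s = B := by field_simp
    rwa [e] at this
  -- the kernel integral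
  have hint : Integrable (fun y => W (B * s) (x - y) * H972.rho s (y - z)) := by
    have hb : ∀ y, ‖W (B * s) (x - y)‖ ≤ 2 / (Real.pi * (B * s)) := fun y => by
      rw [Real.norm_of_nonneg (W_nonneg hBs _)]; exact W_le hBs _
    refine ((H972.integrable_rho hs).comp_sub_right z).bdd_mul (c := 2 / (Real.pi * (B * s))) ?_
      (Filter.Eventually.of_forall hb)
    exact ((H972.continuous_W (B * s)).comp (by fun_prop : Continuous fun y : ℝ => x - y)).aestronglyMeasurable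
  have hnn : ∀ y, 0 ≤ W (B * s) (x - y) * H972.rho s (y - z) := fun y =>
    mul_nonneg (W_nonneg hBs _) (H972.rho_nonneg hs _)
  have hlow : ∀ y ∈ Icc (z - s) (z + s), W (B * s) (x - z) / 9 * (s⁻¹ * Real.exp (-(2 * Real.pi))) ≤
      W (B * s) (x - y) * H972.rho s (y - z) := by
    intro y hy
    have hyz : |y - z| ≤ s := by rw [abs_le]; constructor <;> linarith [hy.1, hy.2]
    have e1 : W (B * s) (x - z) ≤ 9 * W (B * s) (x - y) := by
      apply W_comp hBs
      have : x - z - (x - y) = y - z := by ring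
      rw [this]; exact hyz.trans hsB
    have e2 : s⁻¹ * Real.exp (-(2 * Real.pi)) ≤ H972.rho s (y - z) := by
      unfold H972.rho
      have h2 : s⁻¹ ≤ Real.sqrt 2 / s := by
        rw [inv_eq_one_div]
        gcongr
        rw [Real.one_le_sqrt]; norm_num
      have h3 : Real.exp (-(2 * Real.pi)) ≤ Real.exp (-(2 * Real.pi / s ^ 2) * (y - z) ^ 2) := by
        apply Real.exp_le_exp.mpr
        have h4 : (y - z) ^ 2 ≤ s ^ 2 := by
          rw [← sq_abs]; exact pow_le_pow_left₀ (abs_nonneg _) hyz 2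
        have h5 : 2 * Real.pi / s ^ 2 * (y - z) ^ 2 ≤ 2 * Real.pi := by
          rw [div_mul_eq_mul_div, div_le_iff₀ (by positivity)]
          exact mul_le_mul_of_nonneg_left h4 (by positivity)
        linarith
      exact mul_le_mul h2 h3 (Real.exp_pos _).le (by positivity)
    have e3 : W (B * s) (x - z) / 9 ≤ W (B * s) (x - y) := by linarith
    exact mul_le_mul e3 e2 (by positivity) (W_nonneg hBs _)
  have h2 : 2 * s * (W (B * s) (x - z) / 9 * (s⁻¹ * Real.exp (-(2 * Real.pi)))) ≤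
      H972.Wr (B * s) s x z := by
    unfold H972.Wr
    have hvol : volume.real (Icc (z - s) (z + s)) = 2 * s := by
      rw [Measure.real, Real.volume_Icc, ENNReal.toReal_ofReal (by linarith)]; ring
    have h3 : ∫ y in Icc (z - s) (z + s), W (B * s) (x - z) / 9 * (s⁻¹ * Real.exp (-(2 * Real.pi))) ≤
        ∫ y in Icc (z - s) (z + s), W (B * s) (x - y) * H972.rho s (y - z) := by
      apply setIntegral_mono_on _ hint.integrableOn measurableSet_Icc hlow
      exact integrableOn_const (by rw [Real.volume_Icc]; exact ENNReal.ofReal_ne_top)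
    rw [setIntegral_const, hvol, smul_eq_mul] at h3
    exact h3.trans (setIntegral_le_integral hint (Filter.Eventually.of_forall hnn))
  have h3 : 2 * s * (W (B * s) (x - z) / 9 * (s⁻¹ * Real.exp (-(2 * Real.pi)))) =
      2 / 9 * Real.exp (-(2 * Real.pi)) * W (B * s) (x - z) := by field_simp
  rw [h3] at h2
  have h4 : Real.exp (2 * Real.pi) * Real.exp (-(2 * Real.pi)) = 1 := by
    rw [← Real.exp_add]; simp
  have h5 := mul_le_mul_of_nonneg_left h2 (by positivity : 0 ≤ 9 * B * Real.exp (2 * Real.pi))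
  have h6 : 9 * B * Real.exp (2 * Real.pi) * (2 / 9 * Real.exp (-(2 * Real.pi)) * W (B * s) (x - z)) =
      2 * B * W (B * s) (x - z) * (Real.exp (2 * Real.pi) * Real.exp (-(2 * Real.pi))) := by ring
  rw [h6, h4, mul_one] at h5
  have h7 := mul_nonneg hB0.le (W_nonneg hBs (x - z))
  linarith

lemma eW_int {r : ℝ} (hr : 0 < r) {g : ℝ → ℂ} (hg : Good g) (x t : ℝ) :
    Integrable (fun y => W r (x - y) * ‖sol g y t‖ ^ 2) :=
  H972.integrable_W_sol hr hg.1 x t

lemma eW_nonneg {r : ℝ} (hr : 0 < r) (x t : ℝ) (g : ℝ → ℂ) : 0 ≤ eW r x t g :=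
  integral_nonneg fun _ => mul_nonneg (W_nonneg hr _) (by positivity)

lemma Wr_cont_bdd_int {B s : ℝ} (hB : 1 ≤ B) (hs : 0 < s) {g : ℝ → ℂ} (hg : Good g) (x t : ℝ) :
    Integrable (fun z => H972.Wr (B * s) s x z * ‖sol g z t‖ ^ 2) := by
  have hB0 : 0 < B := by linarith
  have h := eW_int hs hg x t
  have h0 := H972.integrable_Wr (mul_pos hB0 hs) hs x
  have hm : AEStronglyMeasurable (fun z => ‖sol g z t‖ ^ 2) := by
    have h1 : (fun z => ‖sol g z t‖ ^ 2) = fun z => (W s (x - z))⁻¹ * (W s (x - z) * ‖sol g z t‖ ^ 2) := by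
      funext z
      rw [← mul_assoc, inv_mul_cancel₀ (W_pos hs _).ne', one_mul]
    rw [h1]
    refine AEStronglyMeasurable.mul ?_ h.aestronglyMeasurable
    apply Continuous.aestronglyMeasurable
    exact ((H972.continuous_W s).comp (by fun_prop : Continuous fun z : ℝ => x - z)).inv₀
      fun z => (W_pos hs _).ne'
  refine (h.const_mul (4 * Real.sqrt 2 * B ^ 3)).mono' (h0.aestronglyMeasurable.mul hm)
    (Filter.Eventually.of_forall fun z => ?_)
  rw [Real.norm_of_nonneg (mul_nonneg (H972.Wr_nonneg (mul_pos hB0 hs) hs _ _) (by positivity)),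
    ← mul_assoc]
  exact mul_le_mul_of_nonneg_right (H972.Wr_le hB hs x z) (by positivity)

/-- the plain weighted mass is bounded by the packet energy -/
lemma eW_le_En {B s : ℝ} (hB : 1 ≤ B) (hs : 0 < s) {g : ℝ → ℂ} (hg : Good g) (x t : ℝ) :
    eW s x t g ≤ 9 * B * Real.exp (2 * Real.pi) * En B s x t g := by
  rw [H972.En_eq_Wr (by linarith) hs hg.1, ← integral_const_mul]
  unfold eW
  refine integral_mono (eW_int hs hg x t) ((Wr_cont_bdd_int hB hs hg x t).const_mul _) fun z => ?_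
  show W s (x - z) * ‖sol g z t‖ ^ 2 ≤
    9 * B * Real.exp (2 * Real.pi) * (H972.Wr (B * s) s x z * ‖sol g z t‖ ^ 2)
  rw [← mul_assoc]
  exact mul_le_mul_of_nonneg_right (Wr_ge hB hs x z) (by positivity)

end Vale.Agent.P076.H596
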